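import Mathlib
import Vale.Agent.Lib.P237.helper1.FrDefs
import Vale.Agent.Lib.P237.helper98.Prism

/-!
# P237, job FR-2 (backup copy by helper17): the volume of a truncated cone

`volume (frustum D lam c h) ≤ h (1 + lam + lam^2) / 3 * volume D` by slicing at height `z`.
-/

open MeasureTheory Set

namespace Vale.Agent.Lib.P237.H17

open Vale.Agent.Lib.P237

/-- The horizontal slice map at height `z`: a homothety of ratio `1 - (1 - lam) z / h` followed
by a translation. -/
noncomputable def sliceMap (lam : ℝ) (c : ℝ × ℝ) (h : ℝ) (z : ℝ) (d : ℝ × ℝ) : ℝ × ℝ :=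
  ((1 - (1 - lam) * z / h) * d.1 + z / h * c.1, (1 - (1 - lam) * z / h) * d.2 + z / h * c.2)

/-- The map `(z, d) ↦ (z, sliceMap z d)`. -/
noncomputable def fibMap (lam : ℝ) (c : ℝ × ℝ) (h : ℝ) (y : ℝ × (ℝ × ℝ)) : ℝ × (ℝ × ℝ) :=
  (y.1, sliceMap lam c h y.1 y.2)

theorem vol_slice (D : Set (ℝ × ℝ)) (lam : ℝ) (c : ℝ × ℝ) (h z : ℝ) :
    volume (sliceMap lam c h z '' D)
      = ENNReal.ofReal ((1 - (1 - lam) * z / h) ^ 2) * volume D := by
  have h1 : sliceMap lam c h z '' D
      = shift ((fun p : ℝ × ℝ => ((1 - (1 - lam) * z / h) * p.1 + 0 * p.2,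
          0 * p.1 + (1 - (1 - lam) * z / h) * p.2)) '' D) (z / h * c.1, z / h * c.2) := by
    unfold shift
    rw [image_image]
    apply image_congr
    intro d _
    simp only [sliceMap]
    exact Prod.ext (by simp) (by simp)
  rw [h1, vol_shift, vol_image_mat]
  congr 2
  rw [show (1 - (1 - lam) * z / h) * (1 - (1 - lam) * z / h) - 0 * 0
      = (1 - (1 - lam) * z / h) * (1 - (1 - lam) * z / h) by ring, abs_mul_self, sq]

theorem integral_sq (lam h : ℝ) (hne : h ≠ 0) :
    ∫ z in (0:ℝ)..h, (1 - (1 - lam) * z / h) ^ 2 = h * (1 + lam + lam ^ 2) / 3 := by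
  have hF : ∀ x : ℝ, HasDerivAt
      (fun z : ℝ => z - (1 - lam) * z ^ 2 / h + (1 - lam) ^ 2 * z ^ 3 / (3 * h ^ 2))
      ((1 - (1 - lam) * x / h) ^ 2) x := by
    intro x
    have h1 : HasDerivAt (fun z : ℝ => z) 1 x := hasDerivAt_id x
    have h2 : HasDerivAt (fun z : ℝ => z ^ 2) (2 * x) x := by
      simpa using hasDerivAt_pow 2 x
    have h3 : HasDerivAt (fun z : ℝ => z ^ 3) (3 * x ^ 2) x := by
      simpa using hasDerivAt_pow 3 x
    have h4 : HasDerivAt
        (fun z : ℝ => z - (1 - lam) * z ^ 2 / h + (1 - lam) ^ 2 * z ^ 3 / (3 * h ^ 2))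
        (1 - (1 - lam) * (2 * x) / h + (1 - lam) ^ 2 * (3 * x ^ 2) / (3 * h ^ 2)) x :=
      (h1.sub ((h2.const_mul (1 - lam)).div_const h)).add
        ((h3.const_mul ((1 - lam) ^ 2)).div_const (3 * h ^ 2))
    have h5 : (1 - (1 - lam) * x / h) ^ 2
        = 1 - (1 - lam) * (2 * x) / h + (1 - lam) ^ 2 * (3 * x ^ 2) / (3 * h ^ 2) := by
      field_simp
      ring
    rw [h5]
    exact h4
  rw [intervalIntegral.integral_eq_sub_of_hasDerivAt (fun x _ => hF x)
    (Continuous.intervalIntegrable (by fun_prop) _ _)]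
  field_simp
  ring

theorem vol_frustum_le (D : Set (ℝ × ℝ)) (hDc : IsCompact D) (lam : ℝ) (hl0 : 0 ≤ lam)
    (hl1 : lam ≤ 1) (c : ℝ × ℝ) (h : ℝ) (hh : 0 ≤ h) :
    volume (frustum D lam c h) ≤ ENNReal.ofReal (h * (1 + lam + lam ^ 2) / 3) * volume D := by
  rcases hh.eq_or_lt with h0 | hpos
  · subst h0
    have hsub : frustum D lam c 0 ⊆ chart ⁻¹' (({0} : Set ℝ) ×ˢ (univ : Set (ℝ × ℝ))) := by
      rintro x ⟨d, hd, r, hr0, hr1, hx0, hx1, hx2⟩
      simp only [mem_preimage, chart, mem_prod, mem_singleton_iff, mem_univ, and_true]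
      rw [hx2, mul_zero]
    have hvol : volume (chart ⁻¹' (({0} : Set ℝ) ×ˢ (univ : Set (ℝ × ℝ)))) = 0 := by
      rw [chart_mp.measure_preimage
          ((measurableSet_singleton (0:ℝ)).prod MeasurableSet.univ).nullMeasurableSet,
        Measure.volume_eq_prod, Measure.prod_prod, Real.volume_singleton, zero_mul]
    exact le_trans (measure_mono hsub) (by rw [hvol]; simp)
  · have hne : h ≠ 0 := hpos.ne'
    have hΦc : Continuous (fibMap lam c h) := by
      unfold fibMap sliceMap
      fun_prop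
    have hScomp : IsCompact (fibMap lam c h '' (Icc 0 h ×ˢ D)) :=
      (isCompact_Icc.prod hDc).image hΦc
    have hSmeas : MeasurableSet (fibMap lam c h '' (Icc 0 h ×ˢ D)) :=
      hScomp.isClosed.measurableSet
    have hsub : frustum D lam c h ⊆ chart ⁻¹' (fibMap lam c h '' (Icc 0 h ×ˢ D)) := by
      rintro x ⟨d, hd, r, hr0, hr1, hx0, hx1, hx2⟩
      refine ⟨(r * h, d), ⟨⟨mul_nonneg hr0 hh, mul_le_of_le_one_left hh hr1⟩, hd⟩, ?_⟩
      simp only [fibMap, chart, sliceMap]
      refine Prod.ext hx2.symm (Prod.ext ?_ ?_)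
      · simp only
        rw [hx0]
        field_simp
        ring
      · simp only
        rw [hx1]
        field_simp
        ring
    have hfib : ∀ z : ℝ, volume (Prod.mk z ⁻¹' (fibMap lam c h '' (Icc 0 h ×ˢ D)))
        ≤ (Icc (0:ℝ) h).indicator
          (fun z => ENNReal.ofReal ((1 - (1 - lam) * z / h) ^ 2) * volume D) z := by
      intro z
      by_cases hz : z ∈ Icc (0:ℝ) h
      · rw [indicator_of_mem hz]
        have hsubz : Prod.mk z ⁻¹' (fibMap lam c h '' (Icc 0 h ×ˢ D))
            ⊆ sliceMap lam c h z '' D := by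
          rintro q ⟨⟨z', d⟩, ⟨hz', hd⟩, heq⟩
          simp only [fibMap, Prod.mk.injEq] at heq
          obtain ⟨h1, h2⟩ := heq
          subst h1
          exact ⟨d, hd, h2⟩
        exact le_trans (measure_mono hsubz) (le_of_eq (vol_slice D lam c h z))
      · rw [indicator_of_notMem hz]
        have hempty : Prod.mk z ⁻¹' (fibMap lam c h '' (Icc 0 h ×ˢ D)) = ∅ := by
          ext q
          simp only [mem_preimage, mem_empty_iff_false, iff_false]
          rintro ⟨⟨z', d⟩, ⟨hz', hd⟩, heq⟩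
          simp only [fibMap, Prod.mk.injEq] at heq
          exact hz (heq.1 ▸ hz')
        rw [hempty, measure_empty]
    calc volume (frustum D lam c h)
        ≤ volume (chart ⁻¹' (fibMap lam c h '' (Icc 0 h ×ˢ D))) := measure_mono hsub
      _ = volume (fibMap lam c h '' (Icc 0 h ×ˢ D)) :=
          chart_mp.measure_preimage hSmeas.nullMeasurableSet
      _ = ∫⁻ z, volume (Prod.mk z ⁻¹' (fibMap lam c h '' (Icc 0 h ×ˢ D))) := by
          rw [Measure.volume_eq_prod, Measure.prod_apply hSmeas]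
      _ ≤ ∫⁻ z, (Icc (0:ℝ) h).indicator
            (fun z => ENNReal.ofReal ((1 - (1 - lam) * z / h) ^ 2) * volume D) z :=
          lintegral_mono hfib
      _ = ∫⁻ z in Icc (0:ℝ) h, ENNReal.ofReal ((1 - (1 - lam) * z / h) ^ 2) * volume D :=
          lintegral_indicator measurableSet_Icc _
      _ = (∫⁻ z in Icc (0:ℝ) h, ENNReal.ofReal ((1 - (1 - lam) * z / h) ^ 2)) * volume D :=
          lintegral_mul_const _ (by fun_prop)
      _ = ENNReal.ofReal (h * (1 + lam + lam ^ 2) / 3) * volume D := by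
          congr 1
          rw [← ofReal_integral_eq_lintegral_ofReal]
          · congr 1
            rw [integral_Icc_eq_integral_Ioc, ← intervalIntegral.integral_of_le hh]
            exact integral_sq lam h hne
          · exact Continuous.integrableOn_Icc (by fun_prop)
          · exact Filter.Eventually.of_forall (fun z => sq_nonneg _)

end Vale.Agent.Lib.P237.H17
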