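import Mathlib

/-!
# P237, job KAPPA (second copy by helper17): Petty's constant is at most `2 ^ n`

With `kap m = sqrt(pi)^m / Gamma(m/2 + 1)` (the volume of the unit ball of `R^m`):
`kap (n-1) ^ n ≤ 2 ^ n * kap n ^ (n-2)` for every `n ≥ 2`.
-/

open MeasureTheory

namespace Vale.Agent.Lib.P237.H17

/-- `Gamma (m / 2 + 1)`. -/
noncomputable def gam (m : ℕ) : ℝ := Real.Gamma ((m : ℝ) / 2 + 1)

/-- The volume of the unit ball of `R^m`. -/
noncomputable def kap (m : ℕ) : ℝ := Real.sqrt Real.pi ^ m / gam m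

theorem gam_pos (m : ℕ) : 0 < gam m := Real.Gamma_pos_of_pos (by positivity)

theorem kap_pos (m : ℕ) : 0 < kap m :=
  div_pos (pow_pos (Real.sqrt_pos.2 Real.pi_pos) m) (gam_pos m)

theorem gam_add_two (m : ℕ) : gam (m + 2) = ((m : ℝ) / 2 + 1) * gam m := by
  unfold gam
  have h : (((m + 2 : ℕ) : ℝ)) / 2 + 1 = ((m : ℝ) / 2 + 1) + 1 := by
    push_cast
    ring
  rw [h, Real.Gamma_add_one (by positivity)]

theorem kap_add_two (m : ℕ) : kap (m + 2) = 2 * Real.pi / ((m : ℝ) + 2) * kap m := by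
  unfold kap
  rw [gam_add_two]
  have hs : Real.sqrt Real.pi ^ 2 = Real.pi := Real.sq_sqrt Real.pi_pos.le
  have hg := (gam_pos m).ne'
  have hm : (m : ℝ) + 2 ≠ 0 := by positivity
  rw [pow_add, hs]
  field_simp

theorem gam_zero : gam 0 = 1 := by
  unfold gam
  simp

theorem gam_one : gam 1 = Real.sqrt Real.pi / 2 := by
  unfold gam
  have h : ((1 : ℕ) : ℝ) / 2 + 1 = 1 / 2 + 1 := by norm_num
  rw [h, Real.Gamma_add_one (by norm_num), Real.Gamma_one_half_eq]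
  ring

theorem kap_zero : kap 0 = 1 := by
  unfold kap
  rw [gam_zero]
  simp

theorem kap_one : kap 1 = 2 := by
  unfold kap
  rw [gam_one]
  have h := (Real.sqrt_pos.2 Real.pi_pos).ne'
  field_simp

theorem kap_two : kap 2 = Real.pi := by
  have h := kap_add_two 0
  rw [kap_zero] at h
  simpa using h

theorem kap_three : kap 3 = 4 * Real.pi / 3 := by
  have h := kap_add_two 1
  rw [kap_one] at h
  have e : (1 : ℕ) + 2 = 3 := rfl
  rw [e] at h
  rw [h]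
  push_cast
  ring

theorem kap_mul_succ (m : ℕ) :
    kap m * kap (m + 1) * ((m + 1).factorial : ℝ) = 2 * (2 * Real.pi) ^ m := by
  induction m with
  | zero =>
    rw [kap_zero, kap_one]
    simp
  | succ j ih =>
    have e : j + 1 + 1 = j + 2 := rfl
    rw [e, kap_add_two j, Nat.factorial_succ (j + 1)]
    push_cast
    have hj : (j : ℝ) + 2 ≠ 0 := by positivity
    have h1 : kap (j + 1) * (2 * Real.pi / ((j : ℝ) + 2) * kap j)
          * (((j : ℝ) + 1 + 1) * ((j + 1).factorial : ℝ))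
        = (2 * Real.pi) * (kap j * kap (j + 1) * ((j + 1).factorial : ℝ)) := by
      field_simp
      ring
    rw [h1, ih]
    ring

theorem gam_logconvex (m : ℕ) : gam (m + 1) ^ 2 ≤ gam m * gam (m + 2) := by
  unfold gam
  have hs : (0 : ℝ) < (m : ℝ) / 2 + 1 := by positivity
  have ht : (0 : ℝ) < ((m + 2 : ℕ) : ℝ) / 2 + 1 := by positivity
  have h := Real.Gamma_mul_add_mul_le_rpow_Gamma_mul_rpow_Gamma hs ht
    (a := 1 / 2) (b := 1 / 2) (by norm_num) (by norm_num) (by norm_num)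
  have e : (1 / 2 : ℝ) * ((m : ℝ) / 2 + 1) + 1 / 2 * (((m + 2 : ℕ) : ℝ) / 2 + 1)
      = ((m + 1 : ℕ) : ℝ) / 2 + 1 := by
    push_cast
    ring
  rw [e] at h
  have h0 : 0 ≤ Real.Gamma (((m + 1 : ℕ) : ℝ) / 2 + 1) :=
    (Real.Gamma_pos_of_pos (by positivity)).le
  have h2 := pow_le_pow_left₀ h0 h 2
  have hA := (Real.Gamma_pos_of_pos hs).le
  have hB := (Real.Gamma_pos_of_pos ht).le
  have e2 : (Real.Gamma ((m : ℝ) / 2 + 1) ^ (1 / 2 : ℝ)
        * Real.Gamma (((m + 2 : ℕ) : ℝ) / 2 + 1) ^ (1 / 2 : ℝ)) ^ 2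
      = Real.Gamma ((m : ℝ) / 2 + 1) * Real.Gamma (((m + 2 : ℕ) : ℝ) / 2 + 1) := by
    rw [mul_pow, ← Real.rpow_natCast, ← Real.rpow_natCast, ← Real.rpow_mul hA,
      ← Real.rpow_mul hB]
    norm_num
  rw [e2] at h2
  exact h2

theorem kap_star (m : ℕ) :
    2 * Real.pi * kap m ^ 2 ≤ ((m : ℝ) + 2) * kap (m + 1) ^ 2 := by
  have hlc : kap m * kap (m + 2) ≤ kap (m + 1) ^ 2 := by
    unfold kap
    have h := gam_logconvex m
    have g0 := gam_pos m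
    have g1 := gam_pos (m + 1)
    have g2 := gam_pos (m + 2)
    rw [div_mul_div_comm, div_pow, div_le_div_iff₀ (by positivity) (by positivity)]
    have e : Real.sqrt Real.pi ^ m * Real.sqrt Real.pi ^ (m + 2)
        = (Real.sqrt Real.pi ^ (m + 1)) ^ 2 := by ring
    rw [e]
    exact mul_le_mul_of_nonneg_left h (by positivity)
  rw [kap_add_two] at hlc
  have hm : (0 : ℝ) < (m : ℝ) + 2 := by positivity
  have e : 2 * Real.pi * kap m ^ 2
      = ((m : ℝ) + 2) * (kap m * (2 * Real.pi / ((m : ℝ) + 2) * kap m)) := by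
    field_simp
  rw [e]
  exact mul_le_mul_of_nonneg_left hlc hm.le

theorem fact_ineq_two :
    Real.pi ^ (2 + 1) * (((2 : ℕ) : ℝ) + 3) ^ (2 + 1)
      ≤ 2 ^ (2 + 1) * ((2 + 2).factorial : ℝ) ^ 2 := by
  have hp : Real.pi ≤ 3.15 := Real.pi_lt_d2.le
  have h := pow_le_pow_left₀ Real.pi_pos.le hp 3
  norm_num [Nat.factorial] at h ⊢
  linarith

theorem fact_ineq_ge (k : ℕ) (hk : 3 ≤ k) :
    Real.pi ^ (k + 1) * ((k : ℝ) + 3) ^ (k + 1)
      ≤ 2 ^ (k + 1) * ((k + 2).factorial : ℝ) ^ 2 := by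
  have hp : Real.pi ≤ 3.15 := Real.pi_lt_d2.le
  have hp0 := Real.pi_pos
  induction k, hk using Nat.le_induction with
  | base =>
    have h := pow_le_pow_left₀ hp0.le hp 4
    norm_num [Nat.factorial] at h ⊢
    linarith
  | succ j hj ih =>
    have hj3 : (3 : ℝ) ≤ (j : ℝ) := by exact_mod_cast hj
    have ht3 : (0 : ℝ) < (j : ℝ) + 3 := by positivity
    have hx : ((j : ℝ) + 4) / ((j : ℝ) + 3) = 1 / ((j : ℝ) + 3) + 1 := by
      field_simp
      ring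
    have h1 : ((j : ℝ) + 4) / ((j : ℝ) + 3) ≤ Real.exp (1 / ((j : ℝ) + 3)) := by
      rw [hx]
      exact Real.add_one_le_exp _
    have h2 : (((j : ℝ) + 4) / ((j : ℝ) + 3)) ^ (j + 1)
        ≤ Real.exp (1 / ((j : ℝ) + 3)) ^ (j + 1) :=
      pow_le_pow_left₀ (by positivity) h1 _
    have h3 : Real.exp (1 / ((j : ℝ) + 3)) ^ (j + 1)
        = Real.exp (((j + 1 : ℕ) : ℝ) * (1 / ((j : ℝ) + 3))) :=
      (Real.exp_nat_mul _ _).symm
    have h4 : ((j + 1 : ℕ) : ℝ) * (1 / ((j : ℝ) + 3)) ≤ 1 := by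
      push_cast
      rw [mul_one_div, div_le_one ht3]
      linarith
    have h5 : Real.exp (((j + 1 : ℕ) : ℝ) * (1 / ((j : ℝ) + 3))) ≤ Real.exp 1 :=
      Real.exp_le_exp.2 h4
    have h6 : Real.exp 1 < 3 := lt_trans Real.exp_one_lt_d9 (by norm_num)
    have h7 : (((j : ℝ) + 4) / ((j : ℝ) + 3)) ^ (j + 1) ≤ 3 := by
      rw [h3] at h2
      linarith
    have hkey : ((j : ℝ) + 4) ^ (j + 1) ≤ 3 * ((j : ℝ) + 3) ^ (j + 1) := by
      have e : ((j : ℝ) + 4) ^ (j + 1)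
          = (((j : ℝ) + 4) / ((j : ℝ) + 3)) ^ (j + 1) * ((j : ℝ) + 3) ^ (j + 1) := by
        rw [div_pow, div_mul_cancel₀ _ (pow_pos ht3 _).ne']
      rw [e]
      exact mul_le_mul_of_nonneg_right h7 (by positivity)
    have hE : Real.pi * ((j : ℝ) + 4) * 3 ≤ 2 * ((j : ℝ) + 3) ^ 2 := by
      nlinarith
    have hfac : (((j + 1 + 2).factorial : ℕ) : ℝ) = ((j : ℝ) + 3) * ((j + 2).factorial : ℝ) := by
      have e : j + 1 + 2 = (j + 2) + 1 := rfl
      rw [e, Nat.factorial_succ]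
      push_cast
      ring
    rw [hfac]
    push_cast
    have e4 : (j : ℝ) + 1 + 3 = (j : ℝ) + 4 := by ring
    rw [e4]
    calc Real.pi ^ (j + 1 + 1) * ((j : ℝ) + 4) ^ (j + 1 + 1)
        = (Real.pi ^ (j + 1) * ((j : ℝ) + 4) ^ (j + 1)) * (Real.pi * ((j : ℝ) + 4)) := by ring
      _ ≤ (Real.pi ^ (j + 1) * (3 * ((j : ℝ) + 3) ^ (j + 1))) * (Real.pi * ((j : ℝ) + 4)) :=
          mul_le_mul_of_nonneg_right (mul_le_mul_of_nonneg_left hkey (by positivity))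
            (by positivity)
      _ = (Real.pi ^ (j + 1) * ((j : ℝ) + 3) ^ (j + 1)) * (Real.pi * ((j : ℝ) + 4) * 3) := by
          ring
      _ ≤ (2 ^ (j + 1) * ((j + 2).factorial : ℝ) ^ 2) * (Real.pi * ((j : ℝ) + 4) * 3) :=
          mul_le_mul_of_nonneg_right ih (by positivity)
      _ ≤ (2 ^ (j + 1) * ((j + 2).factorial : ℝ) ^ 2) * (2 * ((j : ℝ) + 3) ^ 2) :=
          mul_le_mul_of_nonneg_left hE (by positivity)
      _ = 2 ^ (j + 1 + 1) * (((j : ℝ) + 3) * ((j + 2).factorial : ℝ)) ^ 2 := by ring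

theorem fact_ineq (k : ℕ) (hk : 2 ≤ k) :
    Real.pi ^ (k + 1) * ((k : ℝ) + 3) ^ (k + 1)
      ≤ 2 ^ (k + 1) * ((k + 2).factorial : ℝ) ^ 2 := by
  rcases Nat.eq_or_lt_of_le hk with h2 | h3
  · subst h2
    exact fact_ineq_two
  · exact fact_ineq_ge k h3

theorem main_ge (k : ℕ) (hk : 2 ≤ k) :
    kap (k + 1) ^ (k + 2) ≤ 2 ^ (k + 2) * kap (k + 2) ^ k := by
  have ha := kap_pos (k + 1)
  have hb := kap_pos (k + 2)
  have hpi := Real.pi_pos
  have hP : kap (k + 1) * kap (k + 2) * ((k + 2).factorial : ℝ) = 2 * (2 * Real.pi) ^ (k + 1) :=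
    kap_mul_succ (k + 1)
  have hstar : 2 * Real.pi * kap (k + 1) ^ 2 ≤ ((k : ℝ) + 3) * kap (k + 2) ^ 2 := by
    have h := kap_star (k + 1)
    have e : (((k + 1 : ℕ) : ℝ)) + 2 = (k : ℝ) + 3 := by
      push_cast
      ring
    rw [e] at h
    exact h
  have hfact := fact_ineq k hk
  have hi : (2 * Real.pi) ^ (k + 1) * kap (k + 1) ^ (2 * k + 2)
      ≤ ((k : ℝ) + 3) ^ (k + 1) * kap (k + 2) ^ (2 * k + 2) := by
    have h := pow_le_pow_left₀ (by positivity) hstar (k + 1)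
    have e1 : (2 * Real.pi * kap (k + 1) ^ 2) ^ (k + 1)
        = (2 * Real.pi) ^ (k + 1) * kap (k + 1) ^ (2 * k + 2) := by ring
    have e2 : (((k : ℝ) + 3) * kap (k + 2) ^ 2) ^ (k + 1)
        = ((k : ℝ) + 3) ^ (k + 1) * kap (k + 2) ^ (2 * k + 2) := by
      rw [mul_pow, ← pow_mul, show 2 * (k + 1) = 2 * k + 2 by ring]
    rw [e1, e2] at h
    exact h
  have hiv : (2 * Real.pi) ^ (k + 1) * Real.pi ^ (k + 1) * kap (k + 1) ^ (2 * k + 2)
      ≤ 2 ^ (k + 1) * ((k + 2).factorial : ℝ) ^ 2 * kap (k + 2) ^ (2 * k + 2) := by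
    calc (2 * Real.pi) ^ (k + 1) * Real.pi ^ (k + 1) * kap (k + 1) ^ (2 * k + 2)
        = Real.pi ^ (k + 1) * ((2 * Real.pi) ^ (k + 1) * kap (k + 1) ^ (2 * k + 2)) := by ring
      _ ≤ Real.pi ^ (k + 1) * (((k : ℝ) + 3) ^ (k + 1) * kap (k + 2) ^ (2 * k + 2)) :=
          mul_le_mul_of_nonneg_left hi (by positivity)
      _ = (Real.pi ^ (k + 1) * ((k : ℝ) + 3) ^ (k + 1)) * kap (k + 2) ^ (2 * k + 2) := by ring
      _ ≤ (2 ^ (k + 1) * ((k + 2).factorial : ℝ) ^ 2) * kap (k + 2) ^ (2 * k + 2) :=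
          mul_le_mul_of_nonneg_right hfact (by positivity)
  have key : ((2 * Real.pi) ^ (k + 1) * Real.pi ^ (k + 1) * kap (k + 2) ^ 2)
        * (kap (k + 1) ^ (k + 2)) ^ 2
      ≤ ((2 * Real.pi) ^ (k + 1) * Real.pi ^ (k + 1) * kap (k + 2) ^ 2)
        * (2 ^ (k + 2) * kap (k + 2) ^ k) ^ 2 := by
    have h1 : ((2 * Real.pi) ^ (k + 1) * Real.pi ^ (k + 1) * kap (k + 2) ^ 2)
          * (kap (k + 1) ^ (k + 2)) ^ 2
        = ((2 * Real.pi) ^ (k + 1) * Real.pi ^ (k + 1) * kap (k + 1) ^ (2 * k + 2))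
          * (kap (k + 1) ^ 2 * kap (k + 2) ^ 2) := by ring
    have h2 : ((2 * Real.pi) ^ (k + 1) * Real.pi ^ (k + 1) * kap (k + 2) ^ 2)
          * (2 ^ (k + 2) * kap (k + 2) ^ k) ^ 2
        = (2 ^ (k + 1) * ((k + 2).factorial : ℝ) ^ 2 * kap (k + 2) ^ (2 * k + 2))
          * (kap (k + 1) ^ 2 * kap (k + 2) ^ 2) := by
      have h3 : (2 ^ (k + 1) * ((k + 2).factorial : ℝ) ^ 2 * kap (k + 2) ^ (2 * k + 2))
            * (kap (k + 1) ^ 2 * kap (k + 2) ^ 2)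
          = 2 ^ (k + 1) * (kap (k + 1) * kap (k + 2) * ((k + 2).factorial : ℝ)) ^ 2
            * kap (k + 2) ^ (2 * k + 2) := by ring
      rw [h3, hP]
      ring
    rw [h1, h2]
    exact mul_le_mul_of_nonneg_right hiv (by positivity)
  have hsq := le_of_mul_le_mul_left key (by positivity)
  exact (sq_le_sq₀ (by positivity) (by positivity)).1 hsq

theorem main (k : ℕ) : kap (k + 1) ^ (k + 2) ≤ 2 ^ (k + 2) * kap (k + 2) ^ k := by
  rcases Nat.lt_or_ge k 2 with h | h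
  · interval_cases k
    · rw [kap_one]
      norm_num
    · have e : (1 : ℕ) + 1 = 2 := rfl
      have e' : (1 : ℕ) + 2 = 3 := rfl
      rw [e, e', kap_two, kap_three]
      have hp : Real.pi ≤ 3.15 := Real.pi_lt_d2.le
      have hp0 := Real.pi_pos
      have h1 : Real.pi ^ 2 ≤ 32 / 3 := by nlinarith
      have h2 : Real.pi ^ 3 = Real.pi ^ 2 * Real.pi := by ring
      rw [h2]
      nlinarith
  · exact main_ge k h

theorem kappa_real (n : ℕ) (hn : 2 ≤ n) :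
    (Real.sqrt Real.pi ^ (n - 1) / Real.Gamma (((n - 1 : ℕ) : ℝ) / 2 + 1)) ^ n
      ≤ 2 ^ n * (Real.sqrt Real.pi ^ n / Real.Gamma ((n : ℝ) / 2 + 1)) ^ (n - 2) := by
  obtain ⟨k, rfl⟩ : ∃ k, n = k + 2 := ⟨n - 2, by omega⟩
  have e1 : k + 2 - 1 = k + 1 := rfl
  have e2 : k + 2 - 2 = k := rfl
  rw [e1, e2]
  exact main k

theorem kappa_ball (n : ℕ) (hn : 2 ≤ n) :
    volume (Metric.ball (0 : EuclideanSpace ℝ (Fin (n - 1))) 1) ^ n
      ≤ 2 ^ n * volume (Metric.ball (0 : EuclideanSpace ℝ (Fin n)) 1) ^ (n - 2) := by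
  have : Nonempty (Fin (n - 1)) := ⟨⟨0, by omega⟩⟩
  have : Nonempty (Fin n) := ⟨⟨0, by omega⟩⟩
  have h1 := EuclideanSpace.volume_ball (Fin (n - 1)) (0 : EuclideanSpace ℝ (Fin (n - 1))) 1
  have h2 := EuclideanSpace.volume_ball (Fin n) (0 : EuclideanSpace ℝ (Fin n)) 1
  rw [h1, h2]
  simp only [ENNReal.ofReal_one, one_pow, one_mul, Fintype.card_fin]
  have hk := kappa_real n hn
  have hpos1 : 0 ≤ Real.sqrt Real.pi ^ (n - 1) / Real.Gamma (((n - 1 : ℕ) : ℝ) / 2 + 1) := by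
    apply div_nonneg (by positivity)
    exact (Real.Gamma_pos_of_pos (by positivity)).le
  have hpos2 : 0 ≤ Real.sqrt Real.pi ^ n / Real.Gamma ((n : ℝ) / 2 + 1) := by
    apply div_nonneg (by positivity)
    exact (Real.Gamma_pos_of_pos (by positivity)).le
  rw [← ENNReal.ofReal_pow hpos1, ← ENNReal.ofReal_pow hpos2]
  have h2' : (2 : ENNReal) ^ n = ENNReal.ofReal (2 ^ n) := by
    rw [ENNReal.ofReal_pow (by norm_num)]; simp
  rw [h2', ← ENNReal.ofReal_mul (by positivity)]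
  exact ENNReal.ofReal_le_ofReal hk

/-! ### Strict versions (bonus): strict inequality for every `n ≥ 3`. -/

theorem fact_ineq_two_lt :
    Real.pi ^ (2 + 1) * (((2 : ℕ) : ℝ) + 3) ^ (2 + 1)
      < 2 ^ (2 + 1) * ((2 + 2).factorial : ℝ) ^ 2 := by
  have hp : Real.pi ≤ 3.15 := Real.pi_lt_d2.le
  have h := pow_le_pow_left₀ Real.pi_pos.le hp 3
  norm_num [Nat.factorial] at h ⊢
  linarith

theorem fact_ineq_ge_lt (k : ℕ) (hk : 3 ≤ k) :
    Real.pi ^ (k + 1) * ((k : ℝ) + 3) ^ (k + 1)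
      < 2 ^ (k + 1) * ((k + 2).factorial : ℝ) ^ 2 := by
  have hp : Real.pi ≤ 3.15 := Real.pi_lt_d2.le
  have hp0 := Real.pi_pos
  induction k, hk using Nat.le_induction with
  | base =>
    have h := pow_le_pow_left₀ hp0.le hp 4
    norm_num [Nat.factorial] at h ⊢
    linarith
  | succ j hj ih =>
    have hj3 : (3 : ℝ) ≤ (j : ℝ) := by exact_mod_cast hj
    have ht3 : (0 : ℝ) < (j : ℝ) + 3 := by positivity
    have hx : ((j : ℝ) + 4) / ((j : ℝ) + 3) = 1 / ((j : ℝ) + 3) + 1 := by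
      field_simp
      ring
    have h1 : ((j : ℝ) + 4) / ((j : ℝ) + 3) ≤ Real.exp (1 / ((j : ℝ) + 3)) := by
      rw [hx]
      exact Real.add_one_le_exp _
    have h2 : (((j : ℝ) + 4) / ((j : ℝ) + 3)) ^ (j + 1)
        ≤ Real.exp (1 / ((j : ℝ) + 3)) ^ (j + 1) :=
      pow_le_pow_left₀ (by positivity) h1 _
    have h3 : Real.exp (1 / ((j : ℝ) + 3)) ^ (j + 1)
        = Real.exp (((j + 1 : ℕ) : ℝ) * (1 / ((j : ℝ) + 3))) :=
      (Real.exp_nat_mul _ _).symm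
    have h4 : ((j + 1 : ℕ) : ℝ) * (1 / ((j : ℝ) + 3)) ≤ 1 := by
      push_cast
      rw [mul_one_div, div_le_one ht3]
      linarith
    have h5 : Real.exp (((j + 1 : ℕ) : ℝ) * (1 / ((j : ℝ) + 3))) ≤ Real.exp 1 :=
      Real.exp_le_exp.2 h4
    have h6 : Real.exp 1 < 3 := lt_trans Real.exp_one_lt_d9 (by norm_num)
    have h7 : (((j : ℝ) + 4) / ((j : ℝ) + 3)) ^ (j + 1) ≤ 3 := by
      rw [h3] at h2
      linarith
    have hkey : ((j : ℝ) + 4) ^ (j + 1) ≤ 3 * ((j : ℝ) + 3) ^ (j + 1) := by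
      have e : ((j : ℝ) + 4) ^ (j + 1)
          = (((j : ℝ) + 4) / ((j : ℝ) + 3)) ^ (j + 1) * ((j : ℝ) + 3) ^ (j + 1) := by
        rw [div_pow, div_mul_cancel₀ _ (pow_pos ht3 _).ne']
      rw [e]
      exact mul_le_mul_of_nonneg_right h7 (by positivity)
    have hE : Real.pi * ((j : ℝ) + 4) * 3 ≤ 2 * ((j : ℝ) + 3) ^ 2 := by
      nlinarith
    have hfac : (((j + 1 + 2).factorial : ℕ) : ℝ) = ((j : ℝ) + 3) * ((j + 2).factorial : ℝ) := by
      have e : j + 1 + 2 = (j + 2) + 1 := rfl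
      rw [e, Nat.factorial_succ]
      push_cast
      ring
    rw [hfac]
    push_cast
    have e4 : (j : ℝ) + 1 + 3 = (j : ℝ) + 4 := by ring
    rw [e4]
    calc Real.pi ^ (j + 1 + 1) * ((j : ℝ) + 4) ^ (j + 1 + 1)
        = (Real.pi ^ (j + 1) * ((j : ℝ) + 4) ^ (j + 1)) * (Real.pi * ((j : ℝ) + 4)) := by ring
      _ ≤ (Real.pi ^ (j + 1) * (3 * ((j : ℝ) + 3) ^ (j + 1))) * (Real.pi * ((j : ℝ) + 4)) :=
          mul_le_mul_of_nonneg_right (mul_le_mul_of_nonneg_left hkey (by positivity))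
            (by positivity)
      _ = (Real.pi ^ (j + 1) * ((j : ℝ) + 3) ^ (j + 1)) * (Real.pi * ((j : ℝ) + 4) * 3) := by
          ring
      _ < (2 ^ (j + 1) * ((j + 2).factorial : ℝ) ^ 2) * (Real.pi * ((j : ℝ) + 4) * 3) :=
          mul_lt_mul_of_pos_right ih (by positivity)
      _ ≤ (2 ^ (j + 1) * ((j + 2).factorial : ℝ) ^ 2) * (2 * ((j : ℝ) + 3) ^ 2) :=
          mul_le_mul_of_nonneg_left hE (by positivity)
      _ = 2 ^ (j + 1 + 1) * (((j : ℝ) + 3) * ((j + 2).factorial : ℝ)) ^ 2 := by ring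

theorem fact_ineq_lt (k : ℕ) (hk : 2 ≤ k) :
    Real.pi ^ (k + 1) * ((k : ℝ) + 3) ^ (k + 1)
      < 2 ^ (k + 1) * ((k + 2).factorial : ℝ) ^ 2 := by
  rcases Nat.eq_or_lt_of_le hk with h2 | h3
  · subst h2
    exact fact_ineq_two_lt
  · exact fact_ineq_ge_lt k h3

theorem main_ge_lt (k : ℕ) (hk : 2 ≤ k) :
    kap (k + 1) ^ (k + 2) < 2 ^ (k + 2) * kap (k + 2) ^ k := by
  have ha := kap_pos (k + 1)
  have hb := kap_pos (k + 2)
  have hpi := Real.pi_pos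
  have hP : kap (k + 1) * kap (k + 2) * ((k + 2).factorial : ℝ) = 2 * (2 * Real.pi) ^ (k + 1) :=
    kap_mul_succ (k + 1)
  have hstar : 2 * Real.pi * kap (k + 1) ^ 2 ≤ ((k : ℝ) + 3) * kap (k + 2) ^ 2 := by
    have h := kap_star (k + 1)
    have e : (((k + 1 : ℕ) : ℝ)) + 2 = (k : ℝ) + 3 := by
      push_cast
      ring
    rw [e] at h
    exact h
  have hfact := fact_ineq_lt k hk
  have hi : (2 * Real.pi) ^ (k + 1) * kap (k + 1) ^ (2 * k + 2)
      ≤ ((k : ℝ) + 3) ^ (k + 1) * kap (k + 2) ^ (2 * k + 2) := by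
    have h := pow_le_pow_left₀ (by positivity) hstar (k + 1)
    have e1 : (2 * Real.pi * kap (k + 1) ^ 2) ^ (k + 1)
        = (2 * Real.pi) ^ (k + 1) * kap (k + 1) ^ (2 * k + 2) := by ring
    have e2 : (((k : ℝ) + 3) * kap (k + 2) ^ 2) ^ (k + 1)
        = ((k : ℝ) + 3) ^ (k + 1) * kap (k + 2) ^ (2 * k + 2) := by
      rw [mul_pow, ← pow_mul, show 2 * (k + 1) = 2 * k + 2 by ring]
    rw [e1, e2] at h
    exact h
  have hiv : (2 * Real.pi) ^ (k + 1) * Real.pi ^ (k + 1) * kap (k + 1) ^ (2 * k + 2)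
      < 2 ^ (k + 1) * ((k + 2).factorial : ℝ) ^ 2 * kap (k + 2) ^ (2 * k + 2) := by
    calc (2 * Real.pi) ^ (k + 1) * Real.pi ^ (k + 1) * kap (k + 1) ^ (2 * k + 2)
        = Real.pi ^ (k + 1) * ((2 * Real.pi) ^ (k + 1) * kap (k + 1) ^ (2 * k + 2)) := by ring
      _ ≤ Real.pi ^ (k + 1) * (((k : ℝ) + 3) ^ (k + 1) * kap (k + 2) ^ (2 * k + 2)) :=
          mul_le_mul_of_nonneg_left hi (by positivity)
      _ = (Real.pi ^ (k + 1) * ((k : ℝ) + 3) ^ (k + 1)) * kap (k + 2) ^ (2 * k + 2) := by ring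
      _ < (2 ^ (k + 1) * ((k + 2).factorial : ℝ) ^ 2) * kap (k + 2) ^ (2 * k + 2) :=
          mul_lt_mul_of_pos_right hfact (by positivity)
  have key : ((2 * Real.pi) ^ (k + 1) * Real.pi ^ (k + 1) * kap (k + 2) ^ 2)
        * (kap (k + 1) ^ (k + 2)) ^ 2
      < ((2 * Real.pi) ^ (k + 1) * Real.pi ^ (k + 1) * kap (k + 2) ^ 2)
        * (2 ^ (k + 2) * kap (k + 2) ^ k) ^ 2 := by
    have h1 : ((2 * Real.pi) ^ (k + 1) * Real.pi ^ (k + 1) * kap (k + 2) ^ 2)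
          * (kap (k + 1) ^ (k + 2)) ^ 2
        = ((2 * Real.pi) ^ (k + 1) * Real.pi ^ (k + 1) * kap (k + 1) ^ (2 * k + 2))
          * (kap (k + 1) ^ 2 * kap (k + 2) ^ 2) := by ring
    have h2 : ((2 * Real.pi) ^ (k + 1) * Real.pi ^ (k + 1) * kap (k + 2) ^ 2)
          * (2 ^ (k + 2) * kap (k + 2) ^ k) ^ 2
        = (2 ^ (k + 1) * ((k + 2).factorial : ℝ) ^ 2 * kap (k + 2) ^ (2 * k + 2))
          * (kap (k + 1) ^ 2 * kap (k + 2) ^ 2) := by
      have h3 : (2 ^ (k + 1) * ((k + 2).factorial : ℝ) ^ 2 * kap (k + 2) ^ (2 * k + 2))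
            * (kap (k + 1) ^ 2 * kap (k + 2) ^ 2)
          = 2 ^ (k + 1) * (kap (k + 1) * kap (k + 2) * ((k + 2).factorial : ℝ)) ^ 2
            * kap (k + 2) ^ (2 * k + 2) := by ring
      rw [h3, hP]
      ring
    rw [h1, h2]
    exact mul_lt_mul_of_pos_right hiv (by positivity)
  have hsq := lt_of_mul_lt_mul_left key (by positivity)
  exact lt_of_pow_lt_pow_left₀ 2 (by positivity) hsq

theorem main_lt (k : ℕ) (hk : 1 ≤ k) :
    kap (k + 1) ^ (k + 2) < 2 ^ (k + 2) * kap (k + 2) ^ k := by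
  rcases Nat.lt_or_ge k 2 with h | h
  · obtain rfl : k = 1 := by omega
    have e : (1 : ℕ) + 1 = 2 := rfl
    have e' : (1 : ℕ) + 2 = 3 := rfl
    rw [e, e', kap_two, kap_three]
    have hp : Real.pi ≤ 3.15 := Real.pi_lt_d2.le
    have hp0 := Real.pi_pos
    have h1 : Real.pi ^ 2 < 32 / 3 := by nlinarith
    have h2 : Real.pi ^ 3 = Real.pi ^ 2 * Real.pi := by ring
    rw [h2]
    nlinarith
  · exact main_ge_lt k h

/-- Strict form: for `n ≥ 3` the inequality of `kappa_real` is strict. -/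
theorem kappa_real_lt (n : ℕ) (hn : 3 ≤ n) :
    (Real.sqrt Real.pi ^ (n - 1) / Real.Gamma (((n - 1 : ℕ) : ℝ) / 2 + 1)) ^ n
      < 2 ^ n * (Real.sqrt Real.pi ^ n / Real.Gamma ((n : ℝ) / 2 + 1)) ^ (n - 2) := by
  obtain ⟨k, rfl⟩ : ∃ k, n = (k + 1) + 2 := ⟨n - 3, by omega⟩
  have e1 : k + 1 + 2 - 1 = k + 1 + 1 := rfl
  have e2 : k + 1 + 2 - 2 = k + 1 := rfl
  rw [e1, e2]
  exact main_lt (k + 1) (by omega)

/-- Strict form for the volumes of the unit balls, `n ≥ 3`. -/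
theorem kappa_ball_lt (n : ℕ) (hn : 3 ≤ n) :
    volume (Metric.ball (0 : EuclideanSpace ℝ (Fin (n - 1))) 1) ^ n
      < 2 ^ n * volume (Metric.ball (0 : EuclideanSpace ℝ (Fin n)) 1) ^ (n - 2) := by
  have : Nonempty (Fin (n - 1)) := ⟨⟨0, by omega⟩⟩
  have : Nonempty (Fin n) := ⟨⟨0, by omega⟩⟩
  have h1 := EuclideanSpace.volume_ball (Fin (n - 1)) (0 : EuclideanSpace ℝ (Fin (n - 1))) 1
  have h2 := EuclideanSpace.volume_ball (Fin n) (0 : EuclideanSpace ℝ (Fin n)) 1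
  rw [h1, h2]
  simp only [ENNReal.ofReal_one, one_pow, one_mul, Fintype.card_fin]
  have hk := kappa_real_lt n hn
  have hpos1 : 0 ≤ Real.sqrt Real.pi ^ (n - 1) / Real.Gamma (((n - 1 : ℕ) : ℝ) / 2 + 1) := by
    apply div_nonneg (by positivity)
    exact (Real.Gamma_pos_of_pos (by positivity)).le
  have hpos2 : 0 ≤ Real.sqrt Real.pi ^ n / Real.Gamma ((n : ℝ) / 2 + 1) := by
    apply div_nonneg (by positivity)
    exact (Real.Gamma_pos_of_pos (by positivity)).le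
  have hpos3 : 0 < 2 ^ n * (Real.sqrt Real.pi ^ n / Real.Gamma ((n : ℝ) / 2 + 1)) ^ (n - 2) := by
    apply mul_pos (by positivity)
    apply pow_pos
    apply div_pos (pow_pos (Real.sqrt_pos.2 Real.pi_pos) n)
    exact Real.Gamma_pos_of_pos (by positivity)
  rw [← ENNReal.ofReal_pow hpos1, ← ENNReal.ofReal_pow hpos2]
  have h2' : (2 : ENNReal) ^ n = ENNReal.ofReal (2 ^ n) := by
    rw [ENNReal.ofReal_pow (by norm_num)]; simp
  rw [h2', ← ENNReal.ofReal_mul (by positivity)]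
  exact (ENNReal.ofReal_lt_ofReal_iff hpos3).2 hk

end Vale.Agent.Lib.P237.H17
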